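import Vale.Agent.P269.Deg.InB
import Vale.Agent.P287Q.G.Asm.Mon

/-! Naturality of the right hand side of the degeneration formula. -/

namespace Vale.Agent.P269.Deg

open Fock LinearMap

section tp

variable {V W V' W' : Type} [AddCommGroup V] [Module ℂ V] [AddCommGroup W] [Module ℂ W]
  [AddCommGroup V'] [Module ℂ V'] [AddCommGroup W'] [Module ℂ W'] {p : Par ℂ V} {q : Par ℂ W}
  {p' : Par ℂ V'} {q' : Par ℂ W'} {f : V' →ₗ[ℂ] V} {k : W' →ₗ[ℂ] W}

lemma isEv_pm (hf : IsEv p' p f) (hk : IsEv q' q k) :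
    IsEv (p'.prod q') (p.prod q) (f.prodMap k) := fun v => Prod.ext (hf v.1) (hk v.2)

lemma map_two {a : V →ₗ[ℂ] W} (ha : IsEv p q a) {b : W →ₗ[ℂ] W'} (hb : IsEv q q' b)
    {c : V →ₗ[ℂ] W'} (hc : IsEv p q' c) (e : ∀ v, b (a v) = c v) (x : S p) :
    Fock.map b hb (Fock.map a ha x) = Fock.map c hc x :=
  DFunLike.congr_fun (hom_ext (f := (Fock.map b hb).comp (Fock.map a ha)) (g := Fock.map c hc)
    fun v => by simp [e]) x

lemma tp_map (hf : IsEv p' p f) (hk : IsEv q' q k) (T : S p →ₗ[ℂ] ℂ) (U : S q →ₗ[ℂ] ℂ)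
    (z : S (p'.prod q')) :
    tp (T ∘ₗ (Fock.map _ hf).toLinearMap) (U ∘ₗ (Fock.map _ hk).toLinearMap) z =
      tp T U (Fock.map _ (isEv_pm hf hk) z) := by
  induction z using InB.ind with
  | h x y =>
    rw [InB.tp_ap, map_mul,
      InB.map_map' (isEv_inl p' q') (isEv_pm hf hk) hf (isEv_inl p q) (fun v => by simp),
      InB.map_map' (isEv_inr p' q') (isEv_pm hf hk) hk (isEv_inr p q) (fun v => by simp), InB.tp_ap]
    rfl
  | hadd a b ha hb => simp only [map_add, ha, hb]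

end tp

variable {Γ : Type} [AddCommGroup Γ] (g : Grd Γ) {D : Dv} {H1 H2 H1' H2' : Type} [AddCommGroup H1]
  [Module ℂ H1] [AddCommGroup H2] [Module ℂ H2] [AddCommGroup H1'] [Module ℂ H1']
  [AddCommGroup H2'] [Module ℂ H2'] {p1 : Par ℂ H1} {p2 : Par ℂ H2} {p1' : Par ℂ H1'}
  {p2' : Par ℂ H2'} {θ1 : H1' →ₗ[ℂ] H1} {θ2 : H2' →ₗ[ℂ] H2}

lemma isEv_id' {V : Type} [AddCommGroup V] [Module ℂ V] (p : Par ℂ V) : IsEv p p .id := fun _ => rfl

lemma map_Gam (h1 : IsEv p1' p1 θ1) (h2 : IsEv p2' p2 θ2) (l e : ℕ) :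
    Fock.map _ (isEv_pm (isEv_lr h1 (isEv_id' D.p)) (isEv_lr h2 (isEv_id' D.p)))
      (Gam D p1' p2' l e) = Gam D p1 p2 l e := by
  have : ∀ m, Fock.map _ (isEv_pm (isEv_lr h1 (isEv_id' D.p)) (isEv_lr h2 (isEv_id' D.p)))
      (gam D p1' p2' m) = gam D p1 p2 m := fun m => by
    simp [gam, Prod.mk_zero_zero]
  simp only [Gam, map_smul, map_sum, map_list_prod, List.map_ofFn, Function.comp_def, this]

/-- **Naturality of the gluing.** -/
theorem glue_nat (h1 : IsEv p1' p1 θ1) (h2 : IsEv p2' p2 θ2) (F : Ser Γ (pR p1 D))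
    (G : Ser Γ (pR p2 D)) (β : Γ) (j : ℤ) (x : S ((pT p1').prod (pT p2'))) :
    glue g (fun β j => F β j ∘ₗ (Fock.map _ (isEv_lr h1 (isEv_id' D.p))).toLinearMap)
      (fun β j => G β j ∘ₗ (Fock.map _ (isEv_lr h2 (isEv_id' D.p))).toLinearMap) β j x =
      glue g F G β j (Fock.map _ (isEv_pm (isEv_lp h1) (isEv_lp h2)) x) := by
  refine finsum_congr fun q => ?_
  rw [tp_map, map_mul, map_Gam h1 h2, InB.map_map' (isEv_ins D p1' p2') _
    (isEv_pm (isEv_lp h1) (isEv_lp h2)) (isEv_ins D p1 p2) fun v => by simp]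

end Vale.Agent.P269.Deg
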