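import Vale.Agent.P287Q.G.Kit.Glue
import Vale.Agent.P287Q.G.Bas.DegN
import Vale.Agent.P287Q.G.Prj.Tgt
import Vale.Agent.P287Q.G.Asm.Trn

/-!
# The series of a degeneration with two components
-/

set_option linter.unusedSectionVars false

namespace Vale.Agent.P269

open P291Z Set Function Topology Filter MvPolynomial Fock

/-- The geometric inputs of the degeneration steps. -/
structure St.Kit : Prop where
  spec : St.Spec
  res : St.Res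
  selC : St.SelC
  okA : St.OkA
  okR : St.OkR
  cas : St.Cas
  node : St.Node
  g1 : St.G1
  e0 : St.E0
  pres : St.Pres
  triv : St.Triv

section gen

variable {S Λ R J K K' : Type} [Fintype S] [Fintype Λ] [Fintype R] [Fintype J] [Fintype K]
  [Fintype K']

namespace Wt

variable (W : Wt S Λ R J)

/-- `C` is the cohomology of the quotient of `A` with its Poincare pairing. -/
structure IsCoh (A : Set ((Λ → ℂ) × (J → ℂ))) (C : Deg.Coh) (i : C.H →ₗ[ℂ] H (W.X A)) : Prop where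
  bij : Bijective i
  ev : IsEv C.p (parH _) i
  η : ∀ a b, C.fr.η a b = W.intX _ (i a * i b)
  one : i C.fr.one = 1

/-- The maps of the smoothing `X` are restrictions. -/
structure IsSm {D : Deg.Dv} {Y1 : Deg.Pz D 1} {Y2 : Deg.Pz D (-1)} (X : Deg.Sm Y1 Y2)
    {A1 A2 AX AW : Set ((Λ → ℂ) × (J → ℂ))} (i1 : Y1.H →ₗ[ℂ] H (W.X A1))
    (i2 : Y2.H →ₗ[ℂ] H (W.X A2)) (iX : X.H →ₗ[ℂ] H (W.X AX)) (w : X.W →ₗ[ℂ] H (W.X AW)) : Prop where
  s1 : A1 ⊆ AW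
  s2 : A2 ⊆ AW
  sX : AX ⊆ AW
  ev : IsEv X.pw (parH _) w
  e1 : ∀ x, W.rs s1 (w x) = i1 (X.θ1 x)
  e2 : ∀ x, W.rs s2 (w x) = i2 (X.θ2 x)
  eX : ∀ x, W.rs sX (w x) = iX (X.sp x)

theorem isEv_rs {A A' : Set ((Λ → ℂ) × (J → ℂ))} (h : A ⊆ A') :
    IsEv (parH _) (parH _) (W.rs h).toLinearMap := Tq.isEv_map _

end Wt

namespace Fam

variable {F : Fam S Λ R J K}

theorem isCoh_iff {C : Deg.Coh} {i : C.H →ₗ[ℂ] H (F.X F.cone)} :
    F.IsCoh C i ↔ F.toWt.IsCoh F.cone C i :=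
  ⟨fun h => ⟨h.bij, h.ev, h.η, h.one⟩, fun h => ⟨h.bij, h.ev, h.η, h.one⟩⟩

variable [DecidableEq R] {V : Type} [AddCommGroup V] [Module ℂ V] {p : Fock.Par ℂ V} {k : ℕ}
  {e : F.Ex} {δ : J → ℕ} {A A' A₁ : Set ((Λ → ℂ) × (J → ℂ))} {i : V →ₗ[ℂ] H (F.X A)}
  {i' : V →ₗ[ℂ] H (F.X A')}

theorem serA_congr (hR : St.Res) (hF : F.Nice 0) (hc : F.Cp) (hk : F.Big k) (he : F.ExOk k e)
    (hA : F.cone ⊆ A) (hA' : F.cone ⊆ A') (h : ∀ v, F.rs hA (i v) = F.rs hA' (i' v)) :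
    F.serA k e p i = F.serA k e p i' := by
  rw [serA_res hR hF hc hk he hA, serA_res hR hF hc hk he hA' i']
  exact congrArg _ (LinearMap.ext h)

theorem serR_congr (hR : St.Res) (hF : F.Nice δ) (hc : F.Cp) (hk : F.Big k) (he : F.ExOk k e)
    (hA : F.cone ⊆ A) (hA' : F.cone ⊆ A') (hA₁ : F.dvs δ ⊆ A₁) {D : Deg.Dv}
    (i₁ : D.H →ₗ[ℂ] H (F.X A₁)) (h : ∀ v, F.rs hA (i v) = F.rs hA' (i' v)) :
    F.serR k e p i δ D i₁ = F.serR k e p i' δ D i₁ := by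
  rw [serR_res hR hF hc hk he hA hA₁, serR_res hR hF hc hk he hA' hA₁ i']
  exact congrArg (F.serR k e p · δ D _) (LinearMap.ext h)

/-- The relative series does not depend on the equations. -/
theorem serR_eqs (hE : St.E0) {χ : K' → R → ℤ} {wk G U} (h : (F.eqs χ wk G U).cone = F.cone)
    (hF : F.Nice δ) (hF' : (F.eqs χ wk G U).Nice δ) (hc : F.Cp) (hk : F.Big k) (he : F.ExOk k e)
    (hA : F.cone ⊆ A) (hA₁ : F.dvs δ ⊆ A₁) {D : Deg.Dv} (i₁ : D.H →ₗ[ℂ] H (F.X A₁)) :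
    (F.eqs χ wk G U).serR k e p i δ D i₁ = F.serR k e p i δ D i₁ :=
  funext₂ fun _ _ => serR_eq fun _ _ _ => hE F χ wk G U δ k e h hF hF' hc hk he hA hA₁ _ _ _ _ _

end Fam

end gen

theorem slab_subsingleton (t : ℂ) : (slab (univ : Set (Empty → ℂ)) t).Subsingleton :=
  fun _ h _ h' => funext fun o => by
    cases o with
    | none => exact h.2.trans h'.2.symm
    | some a => exact a.elim

namespace Fam

variable {R J K : Type} [Fintype R] [Fintype J] [Fintype K] [DecidableEq R] [DecidableEq J]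

/-- A degeneration with the standing hypotheses. -/
structure DK (F : Fam Empty (Option Empty) R J K) (i : R) (b c : J) (Ω : Set ℂ) (k : ℕ)
    (g : Deg.Grd (R → ℤ)) : Prop where
  deg : F.Deg i b c univ Ω
  good : F.Good
  reg : ∃ K₀, F.Reg K₀
  big : F.Big k
  grd : F.Grd g
  xi : ∀ d, g.ξ d = d i

namespace DK

variable {F : Fam Empty (Option Empty) R J K} {i : R} {b c : J} {Ω : Set ℂ} {k : ℕ}
  {g : Deg.Grd (R → ℤ)} (h : F.DK i b c Ω k g) {t : ℂ}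
include h

theorem nice : (F.sub (slab univ 0) {b}).Nice (Pi.single c 1) ∧
    (F.sub (slab univ 0) {c}).Nice (Pi.single b 1) ∧ (F.sub (slab univ 0) {b, c}).Nice 0 ∧
    ∀ t ∈ Ω, t ≠ 0 → (F.sub (slab univ t) ∅).Nice 0 :=
  have a := St.degN F i b c univ Ω h.deg h.good h.reg
    ⟨_, fun l => (Holo.MfdAt.univ l.1).isMfd l.2⟩
  ⟨a.1, a.2.1, a.2.2.1, a.2.2.2 (Subsingleton.elim _ _)⟩

omit h in
theorem cp (t : ℂ) (Z : Set J) : (F.sub (slab univ t) Z).Cp :=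
  cp_of_subsingleton (slab_subsingleton t)

theorem bigs (ht : t ∈ Ω) (Z : Set J) : (F.sub (slab univ t) Z).Big k :=
  h.big.sub (h.deg.slab_sub ht) (h.deg.zer_sub Z)

theorem mem (ht : t ∈ Ω) {Z : Set J} {z} : z ∈ (F.sub (slab univ t) Z).cone ↔
    z ∈ F.cone ∧ z.1 none = t ∧ ∀ j ∈ Z, z.2 j = 0 :=
  (mem_cone_sub (h.deg.slab_sub ht) (h.deg.zer_sub Z)).trans (by simp [slab])

theorem dvsL : (F.sub (slab univ 0) {b}).dvs (Pi.single c 1) ⊆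
    (F.sub (slab univ 0) {b, c}).cone := fun _ a =>
  have e := (h.mem h.deg.zero).1 a.1
  (h.mem h.deg.zero).2 ⟨e.1, e.2.1, fun j q => q.elim (e.2.2 j) fun d => a.2 j (by
    rw [show j = c from d, Pi.single_eq_same]; exact one_ne_zero)⟩

theorem dvsR : (F.sub (slab univ 0) {c}).dvs (Pi.single b 1) ⊆
    (F.sub (slab univ 0) {b, c}).cone := fun _ a =>
  have e := (h.mem h.deg.zero).1 a.1
  (h.mem h.deg.zero).2 ⟨e.1, e.2.1, fun j q => q.elim (fun d => a.2 j (by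
    rw [show j = b from d, Pi.single_eq_same]; exact one_ne_zero)) (e.2.2 j)⟩

/-- Shrinking the disc. -/
theorem shrink {Ω' : Set ℂ} (hs : Ω' ⊆ Ω) (ho : IsOpen Ω') (hc : Convex ℝ Ω') (h0 : 0 ∈ Ω') :
    (F.sub {l | l ∘ some ∈ univ ∧ l none ∈ Ω'} ∅).DK i b c Ω' k g :=
  have hB : {l : Option Empty → ℂ | l ∘ some ∈ univ ∧ l none ∈ Ω'} ⊆ F.B := fun _ a =>
    h.deg.B ▸ ⟨a.1, hs a.2⟩
  ⟨⟨h.deg.ne, h.deg.mov, rfl, h.deg.wb, h.deg.wc, h.deg.θ, rfl, ho, hc, h0, h.deg.E⟩,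
    h.good.sub hB (isOpen_univ.inter (ho.preimage (continuous_apply none))).isLocallyClosed
      (fun τ _ l a => by rwa [Subsingleton.elim τ 1, F.actL_one]) (h.deg.zer_sub _)
      (empty_disjoint _), h.reg.imp fun _ a => a.sub hB (h.deg.zer_sub _),
    h.big.sub hB (h.deg.zer_sub _), h.grd, h.xi⟩

variable (hK : St.Kit) {D : Deg.Dv} {A AD : Set ((Option Empty → ℂ) × (J → ℂ))}
  {iD : D.H →ₗ[ℂ] H (F.X AD)} {C : Deg.Coh} {iC : C.H →ₗ[ℂ] H (F.X A)}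
include hK

theorem relL (hA : (F.sub (slab univ 0) {b}).cone ⊆ A) (hD : (F.sub (slab univ 0) {b, c}).cone ⊆ AD)
    (eC : IsEv C.p (parH _) iC) (eD : IsEv D.p (parH _) iD) :
    ((F.sub (slab univ 0) {b}).serR k F.ex0 C.p iC (Pi.single c 1) D iD).RelL g :=
  (hK.okR (F.sub (slab univ 0) {b}) c k F.ex0 C iC D iD g h.nice.1 (cp _ _) (h.bigs h.deg.zero _)
    (exOk0 hK.selC h.nice.1.toGood (h.bigs h.deg.zero _)) hA (h.dvsL.trans hD) eC eD h.grd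
    (h.deg.not_mov.2 (.inr rfl)) h.deg.ne.symm).1 fun d => by
      simp [h.xi, h.deg.wc, Pi.single_apply]

theorem relR (hA : (F.sub (slab univ 0) {c}).cone ⊆ A) (hD : (F.sub (slab univ 0) {b, c}).cone ⊆ AD)
    (eC : IsEv C.p (parH _) iC) (eD : IsEv D.p (parH _) iD) :
    ((F.sub (slab univ 0) {c}).serR k F.ex0 C.p iC (Pi.single b 1) D iD).RelR g :=
  (hK.okR (F.sub (slab univ 0) {c}) b k F.ex0 C iC D iD g h.nice.2.1 (cp _ _) (h.bigs h.deg.zero _)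
    (exOk0 hK.selC h.nice.2.1.toGood (h.bigs h.deg.zero _)) hA (h.dvsR.trans hD) eC eD h.grd
    (h.deg.not_mov.2 (.inl rfl)) h.deg.ne).2 fun d => by
      simp [h.xi, h.deg.wb, Pi.single_apply]

theorem abs (ht : t ∈ Ω) (h0 : t ≠ 0) (hA : (F.sub (slab univ t) ∅).cone ⊆ A)
    (eC : IsEv C.p (parH _) iC) : ((F.sub (slab univ t) ∅).serA k F.ex0 C.p iC).Abs g :=
  hK.okA (F.sub (slab univ t) ∅) k F.ex0 C iC g b (h.nice.2.2.2 t ht h0) (cp _ _) (h.bigs ht _)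
    (exOk0 hK.selC (h.nice.2.2.2 t ht h0).toGood (h.bigs ht _)) hA eC h.grd
    (h.deg.not_mov.2 (.inl rfl)) (notMem_empty _) fun d => by
      simp [h.xi, h.deg.wb, Pi.single_apply]

theorem node (ht : t ∈ Ω) (h0 : t ≠ 0) (hA : A = (F.sub (slab univ t) ∅).cone)
    (hC : F.toWt.IsCoh A C iC) : ((F.sub (slab univ t) ∅).serA k F.ex0 C.p iC).Node := by
  subst hA
  exact hK.node (F.sub (slab univ t) ∅) (fun _ => t) k C iC (h.nice.2.2.2 t ht h0)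
    ((slab_subsingleton t).eq_singleton_of_mem ⟨trivial, rfl⟩) (h.bigs ht _) (isCoh_iff.2 hC)

/-- **The degeneration formula** in the form of the interface. -/
theorem g1 (ht : t ∈ Ω) (h0 : t ≠ 0) {Y1 : Deg.Pz D 1} {Y2 : Deg.Pz D (-1)} {X : Deg.Sm Y1 Y2}
    {A1 A2 AX AW : Set _} {i1 : Y1.H →ₗ[ℂ] H (F.X A1)} {i2 : Y2.H →ₗ[ℂ] H (F.X A2)}
    {iX : X.H →ₗ[ℂ] H (F.X AX)} {w : X.W →ₗ[ℂ] H (F.X AW)} (s : F.toWt.IsSm X i1 i2 iX w)
    (hD : AD = (F.sub (slab univ 0) {b, c}).cone) (cD : F.toWt.IsCoh AD D.toCoh iD)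
    (h1 : (F.sub (slab univ 0) {b}).cone ⊆ A1) (h2 : (F.sub (slab univ 0) {c}).cone ⊆ A2)
    (hX : (F.sub (slab univ t) ∅).cone ⊆ AX) (e1 : IsEv Y1.p (parH _) i1)
    (e2 : IsEv Y2.p (parH _) i2) (eX : IsEv X.p (parH _) iX) {r : ℝ} (hr : ‖t‖ < r)
    (hW : ∀ z ∈ F.cone, ‖z.1 none‖ < r → z ∈ AW) :
    X.G1 g ((F.sub (slab univ 0) {b}).serR k F.ex0 Y1.p i1 (Pi.single c 1) D iD)
      ((F.sub (slab univ 0) {c}).serR k F.ex0 Y2.p i2 (Pi.single b 1) D iD)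
      ((F.sub (slab univ t) ∅).serA k F.ex0 X.p iX) := by
  subst hD
  intro β j x hβ
  have z0 : (0 : ℂ) ∈ Ω ∩ Metric.ball 0 r :=
    ⟨h.deg.zero, Metric.mem_ball_self ((norm_nonneg t).trans_lt hr)⟩
  have zt : t ∈ Ω ∩ Metric.ball 0 r := ⟨ht, mem_ball_zero_iff.2 hr⟩
  have h' := h.shrink inter_subset_left (h.deg.opn.inter Metric.isOpen_ball)
    (h.deg.cvx.inter (convex_ball 0 r)) z0
  set F' := F.sub {l | l ∘ some ∈ univ ∧ l none ∈ Ω ∩ Metric.ball 0 r} ∅ with hF'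
  have hw : F'.cone ⊆ AW := fun z a =>
    have q := (mem_cone_sub (fun _ a => h.deg.B ▸ ⟨a.1, a.2.1⟩) (h.deg.zer_sub _)).1 a
    hW z q.1 (mem_ball_zero_iff.1 q.2.1.2.2)
  have sb : ∀ {u : ℂ} (_ : u ∈ Ω ∩ Metric.ball 0 r) (Z), (F.sub (slab univ u) Z).cone ⊆ F'.cone :=
    fun hu Z => cone_sub (F := F') (h'.deg.slab_sub hu) (empty_subset _)
  have n := h.nice
  have nX := n.2.2.2 t ht h0
  have b0 := h.bigs h.deg.zero
  have G := hK.g1 F' i b c _ k t g D iD X.pw ((F.rs hw).toLinearMap ∘ₗ w) h'.deg h'.good h'.reg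
    h'.big zt h0 h.grd h.xi cD.ev (hK.cas (F.sub (slab univ 0) {b, c}) 0 D.toCoh iD n.2.2.1
      ((slab_subsingleton 0).eq_singleton_of_mem ⟨trivial, rfl⟩) (isCoh_iff.2 cD))
    ((F.isEv_rs hw).comp s.ev) β j x hβ
  have aX := serA_congr (F := F.sub (slab univ t) ∅) (p := X.pw)
    (i := (F.rs hw).toLinearMap ∘ₗ w) (i' := iX ∘ₗ X.sp) hK.res nX
    (cp _ _) (h.bigs ht _) (exOk0 hK.selC nX.toGood (h.bigs ht _)) (sb zt _) hX fun v => by
      simp only [LinearMap.comp_apply, AlgHom.toLinearMap_apply, ← s.eX, Wt.rs_rs]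
  have a1 := serR_congr (F := F.sub (slab univ 0) {b}) (p := X.pw)
    (i := (F.rs hw).toLinearMap ∘ₗ w) (i' := i1 ∘ₗ X.θ1) hK.res n.1
    (cp _ _) (b0 _) (exOk0 hK.selC n.1.toGood (b0 _)) (sb z0 _) h1 h.dvsL iD fun v => by
      simp only [LinearMap.comp_apply, AlgHom.toLinearMap_apply, ← s.e1, Wt.rs_rs]
  have a2 := serR_congr (F := F.sub (slab univ 0) {c}) (p := X.pw)
    (i := (F.rs hw).toLinearMap ∘ₗ w) (i' := i2 ∘ₗ X.θ2) hK.res
    n.2.1 (cp _ _) (b0 _) (exOk0 hK.selC n.2.1.toGood (b0 _)) (sb z0 _) h2 h.dvsR iD fun v => by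
      simp only [LinearMap.comp_apply, AlgHom.toLinearMap_apply, ← s.e2, Wt.rs_rs]
  have c1 := funext₂ (serR_nat hK.spec n.1 (cp _ _) (b0 _) (exOk0 hK.selC n.1.toGood (b0 _)) h1
    h.dvsL e1 X.h1 cD.ev (Deg.isEv_id' D.p))
  have c2 := funext₂ (serR_nat hK.spec n.2.1 (cp _ _) (b0 _) (exOk0 hK.selC n.2.1.toGood (b0 _)) h2
    h.dvsR e2 X.h2 cD.ev (Deg.isEv_id' D.p))
  have cX := serA_nat hK.spec nX (cp _ _) (h.bigs ht _) (exOk0 hK.selC nX.toGood (h.bigs ht _)) hX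
    eX X.hsp β j
  refine (congrArg (fun T => T x) cX).symm.trans ((congrArg (fun T => T β j x) aX).symm.trans
    (G.trans ?_))
  refine (congrArg₂ (fun T U => Deg.glue g T U β j _) (a1.trans c1) (a2.trans c2)).trans ?_
  exact (Deg.glue_nat g X.h1 X.h2 _ _ β j _).trans (congrArg _ (Deg.map_two (Deg.isEv_diag _)
    (Deg.isEv_pm (Deg.isEv_lp X.h1) (Deg.isEv_lp X.h2)) X.isEv_θ (fun _ => rfl) x))

end DK

end Fam

end Vale.Agent.P269
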