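import Vale.Agent.P287Q.G.Kit.Smo
import Vale.Agent.P287Q.G.Kit.Iso
import Vale.Agent.P287Q.G.Asm.PresT

/-!
# Small models: transport of the series and of the Virasoro constraints
-/

set_option linter.unusedSectionVars false

namespace Vale.Agent.P269

open P291Z Set Function Topology Filter MvPolynomial Fock Tq

section alg

variable {X : Deg.Coh} {d : VD X.fr} {Γ Γ' : Type} [AddCommGroup Γ] [AddCommGroup Γ']
  {g : Deg.Grd Γ} {g' : Deg.Grd Γ'}

theorem virC_smul {Z : ℤ → Fock.S (X.p.fs ℕ) →ₗ[ℂ] ℂ} (h : d.VirC Z) (c : ℂ) :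
    d.VirC fun j => c • Z j := fun k j x => by
  simp only [LinearMap.smul_apply, ← smul_add, h k j x, smul_zero]

theorem virD_smul {Z Z' : Deg.Ser Γ (Deg.pT X.p)} (h : Deg.VirD g d Z) {c : ℂ}
    (e : ∀ β j, Z' β j = c • Z β j) : Deg.VirD g d Z' := fun n => by
  simp only [e, ← smul_finsum, LinearMap.smul_comp]
  exact virC_smul (h n) c

theorem virD_iff_of {Z : Deg.Ser Γ (Deg.pT X.p)} {Z' : Deg.Ser Γ' (Deg.pT X.p)} {m : Γ → Γ'}
    (hm : Injective m) (hg : ∀ β, g'.deg (m β) = g.deg β) (e : ∀ β, Z' (m β) = Z β)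
    (e0 : ∀ β', (∀ β, β' ≠ m β) → Z' β' = 0) : Deg.VirD g d Z ↔ Deg.VirD g' d Z' := by
  refine forall_congr' fun n => iff_of_eq (congrArg _ (funext fun j => congrArg (· ∘ₗ _) ?_))
  simp only [← hg, ← e]
  refine (finsum_mem_range (f := fun β' => ∑ᶠ (_ : g'.deg β' = n), Z' β' j) hm).symm.trans
    (finsum_congr fun β' => ?_)
  by_cases h : β' ∈ range m
  · simp only [h, finsum_true]
  · simp [h, e0 β' fun β q => h ⟨β, q.symm⟩]

end alg

variable {S Λ Λ₀ R R' J J' K K' : Type} [Fintype S] [Fintype Λ] [Fintype Λ₀] [Fintype R]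
  [Fintype R'] [Fintype J] [Fintype J'] [Fintype K] [Fintype K'] [DecidableEq R] [DecidableEq R']
  {V : Type} [AddCommGroup V] [Module ℂ V] {p : Fock.Par ℂ V} {k k' : ℕ}

namespace Fam

/-- The absolute series of a trivial family. -/
theorem Triv.serA (hK : St.Kit) {F : Fam S Λ R J K} {F₀ : Fam Empty Λ₀ R J K'} {l₀}
    (h : F.Triv F₀ l₀) (hF : F.Nice 0) (hc : F.Cp) (hF₀ : F₀.Nice 0) (hk : F.Big k)
    (hk₀ : F₀.Big k) {i : V →ₗ[ℂ] H (F.X F.cone)} {i₀ : V →ₗ[ℂ] H (F₀.X F₀.cone)}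
    (ei : IsEv p (parH _) i) (ei₀ : IsEv p (parH _) i₀)
    (hi : ∀ v, i v = F.pb F₀.toWt (fun z => (l₀, z.2)) _ (i₀ v)) :
    ∃ c : ℂ, ∀ d j, F.serA k F.ex0 p i d j = c • F₀.serA k F₀.ex0 p i₀ d j := by
  have he := exOk0 hK.selC hF.toGood hk
  have he₀ := exOk0 hK.selC hF₀.toGood hk₀
  have hm : MapsTo (fun z => (l₀, z.2)) F.cone F₀.cone := fun z a => (h.cone z.1 a.1 z.2).1 a
  refine ⟨F.intB _ (F.rsB (subset_univ F.B) 1), fun d j => monT_ext fun l₁ l₂ => ?_⟩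
  rw [(hK.spec F 0 k _ (A' := F.cone) p i hF hc hk he subset_rfl ei).1 rfl, LinearMap.smul_apply,
    (hK.spec F₀ 0 k _ (A' := F₀.cone) p i₀ hF₀ (cp_of_subsingleton (h.B ▸ subsingleton_singleton))
      hk₀ he₀ subset_rfl ei₀).1 rfl, ← map_map_id i₀ _ i hi]
  exact hK.triv F F₀ l₀ 0 k _ _ univ 1 (subset_univ _) hF hc hF₀ h hk hk₀ he he₀
    (fun _ _ _ _ => Iff.rfl) subset_rfl (F.dvs_subset 0) hm hm
    (fun j a z b => (b.elim id id).2.1.2.2 j a) d j _ l₂ []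

variable {T : Fam Empty Empty R J K} {F' : Fam Empty Λ R' J' K'} {M : R' → R → ℤ}
  {f : (Empty → ℂ) × (J → ℂ) → (Λ → ℂ) × (J' → ℂ)}

theorem Tg.triv_par (h : T.Tg) (l : Λ → ℂ) : T.Triv (T.par l) l where
  w := rfl
  B := rfl
  wt _ := .inl (Subsingleton.elim _ _)
  cone l' _ y := by rw [h.pl.mem_par, Subsingleton.elim l' Empty.elim]; simp
  θ := rfl
  mov := rfl
  zer := rfl
  wtz _ _ := Subsingleton.elim _ _
  E _ _ _ _ := by simp [h.E]

omit [DecidableEq R] in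
theorem Pl.eqh_par (h : T.Pl) (l : Λ → ℂ) :
    Eqh T.actT (T.par l).actT T.cone (T.par l).cone (fun t => t) fun z => (l, z.2) :=
  ⟨Hm.id, fun z a => h.mem_par.2 ⟨rfl, by rwa [Subsingleton.elim Empty.elim z.1]⟩, by fun_prop,
    fun t _ z _ => Prod.ext (funext fun a => by simp [Wt.actT, Wt.actL]) rfl⟩

omit [DecidableEq R] in
theorem Pl.eqh_par' (h : T.Pl) (l : Λ → ℂ) :
    Eqh (T.par l).actT T.actT (T.par l).cone T.cone (fun t => t) fun z => (Empty.elim, z.2) :=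
  ⟨Hm.id, fun _ a => (h.mem_par.1 a).2, by fun_prop,
    fun _ _ _ _ => Prod.ext (Subsingleton.elim _ _) rfl⟩

omit [DecidableEq R] [DecidableEq R'] in
theorem an_evσ (σ : J' → MvPolynomial J (MvPolynomial Λ ℂ)) (z) : AnalyticAt ℂ (evσ σ) z := by
  refine analyticAt_fst.prod (analyticAt_pi_iff.2 fun j => ?_)
  induction σ j using MvPolynomial.induction_on with
  | C a =>
    simp only [evz, map_C, eval_C]
    exact (AnalyticOnNhd.eval_mvPolynomial a z.1 trivial).comp analyticAt_fst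
  | add a b ha hb =>
    simp only [evz, map_add]
    exact ha.add hb
  | mul_X a n ha =>
    simp only [evz, map_mul, map_X, eval_X]
    exact ha.mul (analyticAt_pi_iff.1 analyticAt_snd n)

omit [DecidableEq R] [DecidableEq R'] in
theorem hm_M (M : R' → R → ℤ) : Hm fun t : (Empty → ℂ) × (R → ℂ) =>
    ((1, fun r' => ∏ r, t.2 r ^ M r' r) : (Empty → ℂ) × (R' → ℂ)) :=
  ⟨by simp; rfl, fun a b _ _ => Prod.ext (Subsingleton.elim _ _) (funext fun r' => prod_zpow_mul _ _ _),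
    fun a ha => continuousAt_const.prodMk (continuousAt_pi.2 fun r' =>
      (an_prod_zpow analyticAt_snd (isUnit_T.1 ha).2 _).continuousAt)⟩

omit [DecidableEq R] [DecidableEq R'] in
theorem Pres.eqh {I : Type} [Fintype I] {F : Fam Empty Λ R J K} {φ} {s : I → J'} {σ}
    (h : F.Pres F' φ s M σ) : Eqh F.actT F'.actT F.cone F'.cone
      (fun t => (1, fun r' => ∏ r, t.2 r ^ M r' r)) (evσ σ) :=
  ⟨hm_M M, fun z a => (h.cone _).2 ⟨1, isUnit_one, z, a, (F'.actT_one _).symm⟩,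
    fun z _ => (an_evσ σ z).continuousAt.continuousWithinAt, fun t a z _ => by
      rw [← h.evσ_act (Prod.isUnit_iff.1 a).2, Subsingleton.elim 1 t.1]⟩

variable (T F' M f) in
/-- The target `T` is a small model of `F'`, with the lattice map `M` and the section `f`. -/
structure Md : Prop where
  tg : T.Tg
  nice : F'.Nice 0
  ex : ∃ (l : Λ → ℂ) (I : Type) (_ : Fintype I) (φ : J → J') (s : I → J') (σ : _),
    (T.par l).Pres F' φ s M σ ∧ (∀ j' ∉ F'.mov, j' ∉ F'.zer → ∃ n : I → ℤ,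
      (∀ i, s i ∈ F'.mov → n i = 0) ∧ F'.w j' = ∑ i, n i • F'.w (s i)) ∧
      ∀ z, f z = evσ σ (l, z.2)

namespace Md

variable (h : T.Md F' M f)
include h

theorem eqh : Eqh T.actT F'.actT T.cone F'.cone (fun t => (1, fun r' => ∏ r, t.2 r ^ M r' r)) f := by
  obtain ⟨l, I, _, φ, s, σ, a, -, b⟩ := h.ex
  obtain rfl : f = _ := funext b
  have u := h.tg.pl.eqh_par l
  exact ⟨hm_M M, a.eqh.maps.comp u.maps, a.eqh.cont.comp u.cont u.maps, fun t q z w =>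
    (congrArg _ (u.eqv t q z w)).trans (a.eqh.eqv t q _ (u.maps w))⟩

theorem an (z) : AnalyticAt ℂ f z := by
  obtain ⟨l, I, _, φ, s, σ, -, -, b⟩ := h.ex
  obtain rfl : f = _ := funext b
  exact (an_evσ σ _).comp (analyticAt_const.prod analyticAt_snd)

theorem cp : F'.Cp := by
  obtain ⟨l, I, _, φ, s, σ, a, -⟩ := h.ex
  exact cp_of_subsingleton (a.B ▸ subsingleton_singleton)

theorem inj : Injective fun (d : R → ℤ) r' => ∑ r, M r' r * d r := fun d d' e => by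
  obtain ⟨l, I, _, φ, s, σ, a, -⟩ := h.ex
  refine sub_eq_zero.1 (a.lat_inj _ fun r' => ?_)
  simpa [mul_sub] using sub_eq_zero.2 (congrFun e r')

variable (hK : St.Kit) {A : Set ((Λ → ℂ) × (J' → ℂ))} (hA : F'.cone ⊆ A)
include hK hA

theorem ser {i' : V →ₗ[ℂ] H (F'.X A)} {i : V →ₗ[ℂ] H (T.X T.cone)} (ei : IsEv p (parH _) i')
    (hi : ∀ v, i v = T.pb F'.toWt f _ (i' v)) (hk : T.Big k) (hk' : F'.Big k') :
    ∃ Z : Deg.Ser (R → ℤ) (Deg.pT p),
      (∀ d, F'.serA k' F'.ex0 p i' (fun r' => ∑ r, M r' r * d r) = Z d) ∧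
      (∀ d', (∀ d : R → ℤ, d' ≠ fun r' => ∑ r, M r' r * d r) → F'.serA k' F'.ex0 p i' d' = 0) ∧
      (∃ c : ℂ, ∀ d j, Z d j = c • T.serA k T.ex0 p i d j) ∧
      ∃ c : ℂ, ∀ d j, T.serA k T.ex0 p i d j = c • Z d j := by
  obtain ⟨l, I, _, φ, s, σ, a, hs, b⟩ := h.ex
  obtain rfl : f = _ := funext b
  have q := a.eqh.toEqv.mono subset_rfl (a.eqh.maps.mono_right hA)
  have u := (h.tg.pl.eqh_par l).toEqv
  have u' := (h.tg.pl.eqh_par' l).toEqv
  have n := h.tg.par_nice l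
  have c : (T.par l).Cp := cp_of_subsingleton subsingleton_singleton
  set i₁ : V →ₗ[ℂ] H ((T.par l).X (T.par l).cone) := (H.mapA q.qm).toLinearMap ∘ₗ i'
  have e₁ : IsEv p (parH _) i₁ := (isEv_map _).comp ei
  have h₁ : ∀ v, i₁ v = (T.par l).pb F'.toWt (evσ σ) _ (i' v) := fun v => (Wt.pb_eq q _).symm
  have h₂ : ∀ v, i v = T.pb (T.par l).toWt (fun z => (l, z.2)) _ (i₁ v) := fun v => by
    rw [hi, h₁, Wt.pb_pb u q]
  have e₂ : IsEv p (parH _) i := by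
    rw [show i = (H.mapA u.qm).toLinearMap ∘ₗ i₁ from
      LinearMap.ext fun v => (h₂ v).trans (Wt.pb_eq u _)]
    exact (isEv_map _).comp e₁
  have h₃ : ∀ v, i₁ v = (T.par l).pb T.toWt (fun z => (Empty.elim, z.2)) _ (i v) := fun v => by
    rw [h₂, Wt.pb_pb u' u, Wt.pb_eq (u'.comp u), H.map_id ((u'.comp u).qm_id fun z w =>
      ⟨1, isUnit_one, by rw [Wt.actT_one, ← (h.tg.pl.mem_par.1 w).1]⟩)]
  have e := a.serA0 (p := p) hK.pres hK.selC (by simp [h.tg.mov]) hs n h.nice c (h.tg.par_big l hk) hk'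
    hA h₁
  exact ⟨_, e.1, e.2,
    (h.tg.par_triv l).serA hK n c h.tg.nice (h.tg.par_big l hk) hk e₁ e₂ h₃,
    (h.tg.triv_par l).serA hK h.tg.nice T.cp_empty n hk (h.tg.par_big l hk) e₂ e₁ h₂⟩

variable {C : Deg.Coh} {i' : C.H →ₗ[ℂ] H (F'.X A)} {i : C.H →ₗ[ℂ] H (T.X T.cone)} {vd : VD C.fr}
  (ei : IsEv C.p (parH _) i') (hi : ∀ v, i v = T.pb F'.toWt f _ (i' v))
include ei hi

/-- **The constraints degree by degree do not depend on the model.** -/
theorem virD_iff (hk : T.Big k) (hk' : F'.Big k') {g : Deg.Grd (R → ℤ)} {g' : Deg.Grd (R' → ℤ)}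
    (hg : ∀ d, g'.deg (fun r' => ∑ r, M r' r * d r) = g.deg d) :
    Deg.VirD g vd (T.serA k T.ex0 C.p i) ↔ Deg.VirD g' vd (F'.serA k' F'.ex0 C.p i') := by
  obtain ⟨Z, a, b, ⟨c, e⟩, c', e'⟩ := h.ser hK hA ei hi hk hk'
  exact Iff.trans ⟨fun H => virD_smul H e, fun H => virD_smul H e'⟩ (virD_iff_of h.inj hg a b)

/-- The constraints for the small model give those of the large one. -/
theorem virD (H : T.Vir C i vd) (hk' : F'.Big k') {g' : Deg.Grd (R' → ℤ)}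
    (hf : ∀ n, {β | g'.deg β = n ∧ F'.serA k' F'.ex0 C.p i' β ≠ 0}.Finite) :
    Deg.VirD g' vd (F'.serA k' F'.ex0 C.p i') := by
  obtain ⟨k, hk⟩ := h.tg.exists_big
  obtain ⟨Z, a, b, ⟨c, e⟩, -⟩ := h.ser hK hA ei hi hk hk'
  refine virD_of hf fun β => ?_
  by_cases q : ∃ d : R → ℤ, β = fun r' => ∑ r, M r' r * d r
  · obtain ⟨d, rfl⟩ := q
    simp only [a, e, LinearMap.smul_comp]
    exact virC_smul (H k hk d) c
  · rw [b β (not_exists.1 q)]
    exact virC_zero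

end Md

/-- For Picard rank one the constraints degree by degree are all constraints. -/
theorem vir_of_virD {F : Fam S Λ Unit J K} {C : Deg.Coh} {i : C.H →ₗ[ℂ] H (F.X F.cone)}
    {vd : VD C.fr} {g : Deg.Grd (Unit → ℤ)} (hg : g.deg 1 ≠ 0)
    (H : ∀ k, F.Big k → Deg.VirD g vd (F.serA k F.ex0 C.p i)) : F.Vir C i vd := fun k hk d =>
  virC_of_virD (fun β β' _ _ e => by
    have a : ∀ β : Unit → ℤ, β = β () • 1 := fun β => funext fun _ => by simp
    rw [a β, a β', map_zsmul, map_zsmul, smul_eq_mul, smul_eq_mul] at e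
    rw [a β, a β', mul_right_cancel₀ hg e]) (H k hk) d

section iso

variable {F : Fam S Λ R J K} {A : Set ((Λ → ℂ) × (J → ℂ))} {C C' : Deg.Coh}
  {i : C.H →ₗ[ℂ] H (F.X A)} {i' : C'.H →ₗ[ℂ] H (F.X A)} {d : VD C.fr} {d' : VD C'.fr}

omit [DecidableEq R] in
theorem _root_.Vale.Agent.P269.Wt.IsCoh.iso {W : Wt S Λ R J} {i : C.H →ₗ[ℂ] H (W.X A)}
    {i' : C'.H →ₗ[ℂ] H (W.X A)} (h : W.IsCoh A C i) (h' : W.IsCoh A C' i') :
    ∃ Ψ, C.Iso C' Ψ ∧ ∀ v, i' (Ψ v) = i v := by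
  set Ψ := (LinearEquiv.ofBijective i h.bij).trans (LinearEquiv.ofBijective i' h'.bij).symm
  have e : ∀ v, i' (Ψ v) = i v := fun v => (LinearEquiv.ofBijective i' h'.bij).apply_symm_apply _
  refine ⟨Ψ, ⟨fun v => h'.bij.1 ?_, fun v w => by rw [h'.η, h.η, e, e],
    h'.bij.1 (by rw [e, h.one, h'.one])⟩, e⟩
  rw [← h'.ev]
  exact (congrArg _ (e v)).trans ((h.ev v).trans (e _).symm)

variable (hK : St.Kit) (hF : F.Nice 0) (hc : F.Cp) (hA : F.cone ⊆ A) (h : F.toWt.IsCoh A C i)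
  (h' : F.toWt.IsCoh A C' i') (hμ : ∀ v v', i v = i' v' → i (d.μ v) = i' (d'.μ v'))
  (hρ : ∀ v v', i v = i' v' → i (d.ρ v) = i' (d'.ρ v'))
include hK hF hc h h' hμ hρ

include hA in
/-- The constraints degree by degree do not depend on the model of the cohomology. -/
theorem virD_congr (hk : F.Big k) {g : Deg.Grd (R → ℤ)} :
    Deg.VirD g d (F.serA k F.ex0 C.p i) ↔ Deg.VirD g d' (F.serA k F.ex0 C'.p i') := by
  obtain ⟨Ψ, a, e⟩ := h.iso h'
  rw [← a.virD (d := d) (fun v => h'.bij.1 (by rw [e, hμ _ _ (e v).symm]))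
    (fun v => h'.bij.1 (by rw [e, hρ _ _ (e v).symm])), show i = i' ∘ₗ Ψ.toLinearMap from
    LinearMap.ext fun v => (e v).symm,
    funext₂ (serA_nat hK.spec hF hc hk (exOk0 hK.selC hF.toGood hk) hA h'.ev a.ev)]

end iso

/-- The constraints do not depend on the model of the cohomology. -/
theorem Vir.congr (hK : St.Kit) {F : Fam S Λ R J K} (hF : F.Nice 0) (hc : F.Cp) {C C' : Deg.Coh}
    {i : C.H →ₗ[ℂ] H (F.X F.cone)} {i' : C'.H →ₗ[ℂ] H (F.X F.cone)} {d : VD C.fr} {d' : VD C'.fr}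
    (h : F.IsCoh C i) (h' : F.IsCoh C' i') (hμ : ∀ v v', i v = i' v' → i (d.μ v) = i' (d'.μ v'))
    (hρ : ∀ v v', i v = i' v' → i (d.ρ v) = i' (d'.ρ v')) (H : F.Vir C i d) : F.Vir C' i' d' :=
  fun k hk β => by
    obtain ⟨Ψ, a, e⟩ := (isCoh_iff.1 h).iso (isCoh_iff.1 h')
    rw [← a.virC (d := d) (fun v => h'.bij.1 (by rw [e, hμ _ _ (e v).symm]))
      fun v => h'.bij.1 (by rw [e, hρ _ _ (e v).symm])]
    convert H k hk β using 2 with j
    rw [ser0, ser0, show i = i' ∘ₗ Ψ.toLinearMap from LinearMap.ext fun v => (e v).symm,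
      serA_nat hK.spec hF hc hk (exOk0 hK.selC hF.toGood hk) subset_rfl h'.ev a.ev]
    exact LinearMap.ext fun x => congrArg (fun y => F.serA k F.ex0 C'.p i' β j y)
      (Deg.InB.map_map' (Deg.isEv_vv a.ev) (Deg.isEv_inl _ _) (Deg.isEv_inl _ _) (Deg.isEv_lp a.ev)
        (fun v => by simp) x)

end Fam

end Vale.Agent.P269
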